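-- RD-BASE 144a5e3663d838458377f5e43aade9d92c63cc1e
import Vale.Agent.P028.MathlibUsed
import Vale.Agent.P028.RD.H734.CutDefs
attribute [-instance] ProperSMul.toContinuousSMul IsTopologicalTorsor.toContinuousSMul IdemSemiring.toCanonicallyOrderedAdd IdemSemiring.toMulLeftMono IdemSemiring.toMulRightMono AddQuantale.instAddLeftMono AddQuantale.instAddRightMono Quantale.instMulLeftMono Quantale.instMulRightMono FiniteDimensional.rclike_to_real IsScalarTower.complexToReal FiniteDimensional.complexToReal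

/-!
# The shift of a number by a pattern of deviating primes

`R' = R / b * a`, where `R` and `R'` deviate at all the primes of `a b` (all `> x`).
-/

namespace Vale.P028.SK

open Finset CF RN

/-- the pattern `(a, b)` is a pattern of deviating primes `> x` of `R` -/
structure ShP (g : Cfg) (x R a b : ℕ) : Prop where
  R0 : 0 < R
  a0 : 0 < a
  cop : a.Coprime b
  dvd : b ∣ R
  zx : zs g ≤ x
  pr : ∀ p ∈ (a * b).primeFactors, x < p ∧ R.factorization p < kc g R p ∧
    (R / b * a).factorization p < kc g R p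

variable {g : Cfg} {x R a b : ℕ}

theorem ShP.b0 (h : ShP g x R a b) : 0 < b := Nat.pos_of_dvd_of_pos h.dvd h.R0

theorem ShP.div0 (h : ShP g x R a b) : 0 < R / b :=
  Nat.div_pos (Nat.le_of_dvd h.R0 h.dvd) h.b0

theorem ShP.pos (h : ShP g x R a b) : 0 < R / b * a := Nat.mul_pos h.div0 h.a0

theorem ShP.fac (h : ShP g x R a b) (p : ℕ) : (R / b * a).factorization p =
    R.factorization p - b.factorization p + a.factorization p := by
  rw [Nat.factorization_mul h.div0.ne' h.a0.ne', Finsupp.add_apply, Nat.factorization_div h.dvd,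
    Finsupp.tsub_apply]

theorem ShP.prime (h : ShP g x R a b) {p : ℕ} (hp : p.Prime) (hd : p ∣ a ∨ p ∣ b) :
    x < p ∧ R.factorization p < kc g R p ∧ (R / b * a).factorization p < kc g R p := by
  refine h.pr p (Nat.mem_primeFactors.2 ⟨hp, ?_, (Nat.mul_pos h.a0 h.b0).ne'⟩)
  rcases hd with h1 | h1
  · exact h1.mul_right _
  · exact h1.mul_left _

/-- the exponents at the primes outside the pattern -/
theorem ShP.fac_eq (h : ShP g x R a b) {p : ℕ} (ha : ¬ p ∣ a) (hb : ¬ p ∣ b) :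
    (R / b * a).factorization p = R.factorization p := by
  rw [h.fac, Nat.factorization_eq_zero_of_not_dvd ha, Nat.factorization_eq_zero_of_not_dvd hb,
    Nat.sub_zero, Nat.add_zero]

/-- the exponents agree or both deviate -/
theorem ShP.fac_or (h : ShP g x R a b) (p : ℕ) :
    (R / b * a).factorization p = R.factorization p ∨
      (p.Prime ∧ x < p ∧ (p ∣ a ∨ p ∣ b) ∧ R.factorization p < kc g R p ∧
        (R / b * a).factorization p < kc g R p) := by
  by_cases hp : p.Prime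
  · by_cases hd : p ∣ a ∨ p ∣ b
    · obtain ⟨h1, h2, h3⟩ := h.prime hp hd
      exact Or.inr ⟨hp, h1, hd, h2, h3⟩
    · rw [not_or] at hd
      exact Or.inl (h.fac_eq hd.1 hd.2)
  · left
    rw [Nat.factorization_eq_zero_of_not_prime _ hp, Nat.factorization_eq_zero_of_not_prime _ hp]

/-- a deviating prime is at most `N` -/
theorem le_N_of_lt_kc {q p : ℕ} (h : q.factorization p < kc g q p) : p ≤ N g := by
  by_contra hN
  have : kc g q p = 0 := by
    unfold kc NT.kN
    rw [if_neg hN]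
  omega

/-- a deviating prime is not split -/
theorem not_Spl_of_lt_kc {q p : ℕ} (h : q.factorization p < kc g q p) : ¬ Spl g q p := by
  intro hs
  rw [kc_le (le_N_of_lt_kc h), NT.kk_of_split hs] at h
  exact lt_irrefl _ h

theorem ShP.split (h : ShP g x R a b) : ∀ p : ℕ, p ≤ N g →
    NT.Split (f g) (thr g) (NT.cell g.V (f g) (thr g) (N g) p R) p →
      (R / b * a).factorization p = R.factorization p := by
  intro p _ hs
  rcases h.fac_or p with h1 | ⟨-, -, -, h1, -⟩
  · exact h1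
  · exact absurd hs (not_Spl_of_lt_kc h1)

theorem ShP.cell (h : ShP g x R a b) (m : ℕ) :
    NT.cell g.V (f g) (thr g) (N g) m (R / b * a) = NT.cell g.V (f g) (thr g) (N g) m R :=
  cell_congr_split h.split m

theorem ShP.kc (h : ShP g x R a b) (p : ℕ) : kc g (R / b * a) p = kc g R p :=
  kc_congr_split h.split p

theorem ShP.kc' (h : ShP g x R a b) : CF.kc g (R / b * a) = CF.kc g R :=
  funext fun p => h.kc p

theorem ShP.Spl (h : ShP g x R a b) (p : ℕ) : Spl g (R / b * a) p ↔ Spl g R p := by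
  unfold SK.Spl
  rw [h.cell]

theorem ShP.Qc (h : ShP g x R a b) : Qc g (R / b * a) = Qc g R := by
  unfold SK.Qc xc
  exact prod_congr rfl fun p _ => by rw [h.kc]

theorem ShP.hn (h : ShP g x R a b) : hn g (R / b * a) = hn g R := by
  funext j
  unfold SK.hn
  rw [h.Qc]
  by_cases h1 : SK.Spl g R (N g - j)
  · rw [if_neg fun h' => h'.2 ((h.Spl _).2 h1), if_neg fun h' => h'.2 h1]
  · by_cases h2 : (SK.Qc g R).factorization (N g - j) ≠ 0
    · rw [if_pos ⟨h2, fun h' => h1 ((h.Spl _).1 h')⟩, if_pos ⟨h2, h1⟩]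
    · rw [if_neg fun h' => h2 h'.1, if_neg fun h' => h2 h'.1]

theorem ShP.muw (h : ShP g x R a b) (c1 : ℝ) : muw g c1 (R / b * a) = muw g c1 R := by
  funext j
  unfold SK.muw
  rw [h.hn]

/-- the primes of the pattern are primes of the frame -/
theorem ShP.memPO (h : ShP g x R a b) {p : ℕ} (hp : p.Prime) (hx : x < p)
    (hk : R.factorization p < CF.kc g R p) : p ∈ PO (zs g) (N g) :=
  mem_PO.2 ⟨hp, by have := h.zx; omega, le_N_of_lt_kc hk⟩

theorem ShP.bl (h : ShP g x R a b) : bl g (R / b * a) = bl g R := by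
  unfold SK.bl
  rw [h.Qc]
  congr 1
  refine Nat.eq_of_factorization_eq (Nat.mul_ne_zero h.pos.ne' (Md_pos _).ne')
    (Nat.mul_ne_zero h.R0.ne' (Md_pos _).ne') fun p => ?_
  rw [Nat.factorization_mul h.pos.ne' (Md_pos _).ne', Nat.factorization_mul h.R0.ne' (Md_pos _).ne',
    Finsupp.add_apply, Finsupp.add_apply, Md_fac, Md_fac, h.kc]
  rcases h.fac_or p with h1 | ⟨hp, h2, -, h3, h4⟩
  · rw [h1]
  · rw [if_pos (h.memPO hp h2 h3), if_pos (h.memPO hp h2 h3)]
    omega

/-- the flags of a number in terms of its deficit -/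
theorem wo_ne_iff (R : ℕ) (j : Fin (N g)) :
    wo g R j ≠ 0 ↔ (Md g R).factorization (N g - j) ≠ 0 ∧ Eb g ≠ 0 := by
  unfold wo wd
  rw [Ne, Fin.ext_iff]
  simp only [Fin.val_zero]
  omega

/-- numbers whose deficits have the same primes have the same flags -/
theorem uw_congr_Md {R R' : ℕ} (h : ∀ p, (Md g R').factorization p ≠ 0 ↔
    (Md g R).factorization p ≠ 0) : uw g R' = uw g R := by
  classical
  funext j
  unfold uw
  refine decide_eq_decide.2 ?_
  constructor
  · rintro ⟨h1, h2⟩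
    refine ⟨h1, ?_⟩
    rw [wo_ne_iff] at h2 ⊢
    exact ⟨(h _).1 h2.1, h2.2⟩
  · rintro ⟨h1, h2⟩
    refine ⟨h1, ?_⟩
    rw [wo_ne_iff] at h2 ⊢
    exact ⟨(h _).2 h2.1, h2.2⟩

theorem ShP.uw (h : ShP g x R a b) : uw g (R / b * a) = uw g R := by
  refine uw_congr_Md fun p => ?_
  rw [Md_fac, Md_fac, h.kc]
  rcases h.fac_or p with h1 | ⟨hp, h2, -, h3, h4⟩
  · rw [h1]
  · rw [if_pos (h.memPO hp h2 h3), if_pos (h.memPO hp h2 h3)]
    omega

theorem ShP.dst (h : ShP g x R a b) (c1 c : ℝ) (y a0 p : ℕ) :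
    dst g c1 c y a0 (R / b * a) p = dst g c1 c y a0 R p := by
  unfold SK.dst
  rw [h.muw, h.uw]

theorem ShP.wf (h : ShP g x R a b) (c1 c : ℝ) (y a0 m : ℕ) :
    wf g c1 c y a0 (R / b * a) m = wf g c1 c y a0 R m := by
  unfold SK.wf
  exact prod_congr rfl fun p _ => h.dst c1 c y a0 p

/-- the primes of a fill are not primes of the pattern -/
theorem ShP.fil_not (h : ShP g x R a b) {y i m p : ℕ} (hF : Fil g y i R m)
    (hp : p ∈ m.primeFactors) : ¬ p ∣ a ∧ ¬ p ∣ b := by
  have hpp := Nat.prime_of_mem_primeFactors hp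
  have h1 := (hF.2.2 p hp).2.2.1
  constructor
  · intro h2
    have := (h.prime hpp (Or.inl h2)).2.1
    omega
  · intro h2
    have := (h.prime hpp (Or.inr h2)).2.1
    omega

theorem ShP.fil_not' (h : ShP g x R a b) {y i m p : ℕ} (hF : Fil g y i (R / b * a) m)
    (hp : p ∈ m.primeFactors) : ¬ p ∣ a ∧ ¬ p ∣ b := by
  have hpp := Nat.prime_of_mem_primeFactors hp
  have h1 := (hF.2.2 p hp).2.2.1
  rw [h.kc] at h1
  constructor
  · intro h2
    have := (h.prime hpp (Or.inl h2)).2.2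
    omega
  · intro h2
    have := (h.prime hpp (Or.inr h2)).2.2
    omega

theorem dvd_of_fac {m n : ℕ} (hm : m ≠ 0) (hn : n ≠ 0)
    (h : ∀ p ∈ m.primeFactors, m.factorization p ≤ n.factorization p) : m ∣ n := by
  rw [← Nat.factorization_le_iff_dvd hm hn]
  intro p
  by_cases hp : p ∈ m.primeFactors
  · exact h p hp
  · have h1 : m.factorization p = 0 := by
      rwa [← Nat.support_factorization, Finsupp.notMem_support_iff] at hp
    rw [h1]
    exact Nat.zero_le _

theorem Fil.ne {x i R m : ℕ} (h : Fil g x i R m) : m ≠ 0 := by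
  intro h0
  have := h.2.1
  rw [h0, zero_dvd_iff] at this
  exact h.1 this

/-- the fills of the shifted number -/
theorem ShP.fil (h : ShP g x R a b) (y i m : ℕ) : Fil g y i (R / b * a) m ↔ Fil g y i R m := by
  constructor
  · intro hF
    refine ⟨h.R0.ne', dvd_of_fac hF.ne h.R0.ne' fun p hp => ?_, fun p hp => ?_⟩
    · obtain ⟨h1, h2⟩ := h.fil_not' hF hp
      rw [← h.fac_eq h1 h2]
      exact (Nat.factorization_le_iff_dvd hF.ne hF.1).2 hF.2.1 p
    · obtain ⟨h1, h2⟩ := h.fil_not' hF hp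
      obtain ⟨h3, h4, h5, h6⟩ := hF.2.2 p hp
      rw [h.fac_eq h1 h2, h.kc] at h5
      exact ⟨h3, h4, h5, fun h7 => h6 ((h.Spl p).2 h7)⟩
  · intro hF
    refine ⟨h.pos.ne', dvd_of_fac hF.ne h.pos.ne' fun p hp => ?_, fun p hp => ?_⟩
    · obtain ⟨h1, h2⟩ := h.fil_not hF hp
      rw [h.fac_eq h1 h2]
      exact (Nat.factorization_le_iff_dvd hF.ne hF.1).2 hF.2.1 p
    · obtain ⟨h1, h2⟩ := h.fil_not hF hp
      obtain ⟨h3, h4, h5, h6⟩ := hF.2.2 p hp
      rw [← h.fac_eq h1 h2, ← h.kc] at h5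
      exact ⟨h3, h4, h5, fun h7 => h6 ((h.Spl p).1 h7)⟩

/-- the fills are coprime to the pattern -/
theorem ShP.fil_cop (h : ShP g x R a b) {y i m : ℕ} (hF : Fil g y i R m) :
    m.Coprime a ∧ m.Coprime b := by
  constructor
  · refine Nat.Coprime.symm (Nat.coprime_of_dvd fun p hp h1 h2 => ?_)
    exact (h.fil_not hF (Nat.mem_primeFactors.2 ⟨hp, h2, hF.ne⟩)).1 h1
  · refine Nat.Coprime.symm (Nat.coprime_of_dvd fun p hp h1 h2 => ?_)
    exact (h.fil_not hF (Nat.mem_primeFactors.2 ⟨hp, h2, hF.ne⟩)).2 h1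

theorem ShP.dvd_div (h : ShP g x R a b) {y i m : ℕ} (hF : Fil g y i R m) : b ∣ R / m := by
  have h1 : m * b ∣ R := Nat.Coprime.mul_dvd_of_dvd_of_dvd (h.fil_cop hF).2 hF.2.1 h.dvd
  obtain ⟨k, hk⟩ := h1
  refine ⟨k, ?_⟩
  rw [hk, mul_assoc, Nat.mul_div_cancel_left _ (Nat.pos_of_ne_zero hF.ne)]

/-- shifting and filling commute -/
theorem ShP.div_fill (h : ShP g x R a b) {y i m : ℕ} (hF : Fil g y i R m) :
    R / m / b * a = R / b * a / m := by
  have hm0 : 0 < m := Nat.pos_of_ne_zero hF.ne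
  have h1 : m * b ∣ R := Nat.Coprime.mul_dvd_of_dvd_of_dvd (h.fil_cop hF).2 hF.2.1 h.dvd
  obtain ⟨k, hk⟩ := h1
  have e1 : R / m = b * k := by
    rw [hk, mul_assoc, Nat.mul_div_cancel_left _ hm0]
  have e2 : R / b = m * k := by
    rw [hk, mul_comm m b, mul_assoc, Nat.mul_div_cancel_left _ h.b0]
  rw [e1, e2, Nat.mul_div_cancel_left _ h.b0, mul_assoc, Nat.mul_div_cancel_left _ hm0]

/-- the outer deficits do not change if the primes of the pattern are at most `z i` -/
theorem ShP.M (h : ShP g x R a b) {i : ℕ} (hz : ∀ p ∈ (a * b).primeFactors, p ≤ z g i) :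
    M g i (R / b * a) = M g i R := by
  refine Nat.eq_of_factorization_eq (M_pos _ _ _).ne' (M_pos _ _ _).ne' fun p => ?_
  unfold CF.M
  rw [od_fac, od_fac, h.kc]
  split_ifs with h1
  · rcases h.fac_or p with h2 | ⟨hp, h2, h3, -, -⟩
    · rw [h2]
    · exfalso
      have h4 := (mem_PO.1 h1).2.1
      have h5 := hz p (Nat.mem_primeFactors.2 ⟨hp, by
        rcases h3 with h3 | h3
        · exact h3.mul_right _
        · exact h3.mul_left _, (Nat.mul_pos h.a0 h.b0).ne'⟩)
      omega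
  · rfl

theorem ShP.Wt (h : ShP g x R a b) {i : ℕ} (hz : ∀ p ∈ (a * b).primeFactors, p ≤ z g i) :
    Wt g i (R / b * a) = Wt g i R := by
  unfold SK.Wt
  rw [h.M hz, h.kc']

/-- the masses -/
theorem ShP.f_le (h : ShP g x R a b) :
    f g (R / b * a) ≤ (a : ℝ) / b * NT.Gn b * f g R := by
  refine f_le_f_mul h.R0 h.b0 h.a0 ?_
  obtain ⟨k, hk⟩ := h.dvd
  rw [hk, Nat.mul_div_cancel_left _ h.b0]
  ring

theorem ShP.f_ge (h : ShP g x R a b) :
    f g R ≤ (b : ℝ) / a * NT.Gn a * f g (R / b * a) := by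
  refine f_le_f_mul h.pos h.a0 h.b0 ?_
  obtain ⟨k, hk⟩ := h.dvd
  rw [hk, Nat.mul_div_cancel_left _ h.b0]
  ring

/-- the shifted number is shifted back by the opposite pattern -/
theorem ShP.back (h : ShP g x R a b) : R / b * a / a * b = R := by
  rw [Nat.mul_div_cancel _ h.a0, Nat.div_mul_cancel h.dvd]

theorem ShP.symm (h : ShP g x R a b) : ShP g x (R / b * a) b a := by
  refine ⟨h.pos, h.b0, h.cop.symm, dvd_mul_left _ _, h.zx, fun p hp => ?_⟩
  rw [mul_comm b a] at hp
  obtain ⟨h1, h2, h3⟩ := h.pr p hp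
  rw [h.back, h.kc]
  exact ⟨h1, h3, h2⟩

/-- the future of the shifted number -/
theorem ShP.wo (h : ShP g x R a b) {j : Fin (N g)} (hj : ¬ (N g - j) ∣ a * b) :
    wo g (R / b * a) j = wo g R j := by
  unfold SK.wo wd
  refine Fin.ext ?_
  simp only
  have h1 : (Md g (R / b * a)).factorization (N g - j) = (Md g R).factorization (N g - j) := by
    rw [Md_fac, Md_fac, h.kc, h.fac_eq (fun h2 => hj (h2.mul_right _))
      (fun h2 => hj (h2.mul_left _))]
  rw [h1]

/-- exponents of the centre -/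
theorem ShP.gd (h : ShP g x R a b) (hE : ∀ p, (SK.Qc g R).factorization p ≤ Eb g) :
    ∀ p, (SK.Qc g (R / b * a)).factorization p ≤ Eb g := by
  intro p
  rw [h.Qc]
  exact hE p

end Vale.P028.SK
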