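-- RD-BASE 0e9efc672e14d5cfc1644d2c7159f005330f1497
import Vale.Agent.P028.MathlibUsed
import Vale.Agent.P028.RD.H564.SizeGap
import Vale.Agent.P028.RD.R627.FDefs
attribute [-instance] ProperSMul.toContinuousSMul IsTopologicalTorsor.toContinuousSMul IdemSemiring.toCanonicallyOrderedAdd IdemSemiring.toMulLeftMono IdemSemiring.toMulRightMono AddQuantale.instAddLeftMono AddQuantale.instAddRightMono Quantale.instMulLeftMono Quantale.instMulRightMono FiniteDimensional.rclike_to_real IsScalarTower.complexToReal FiniteDimensional.complexToReal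

/-!
# The parts `≤ x` (`lowp`) and the tilt
-/

namespace Vale.P028.SK

open Finset CF

theorem lowp_fac {x n : ℕ} (p : ℕ) :
    (lowp x n).factorization p = if p ≤ x then n.factorization p else 0 := by
  classical
  have h1 : lowp x n = (n.factorization.filter (fun p => p ≤ x)).prod fun p k => p ^ k := by
    unfold lowp Finsupp.prod
    rw [Finsupp.support_filter, Nat.support_factorization]
    refine prod_congr rfl fun p hp => ?_
    rw [Finsupp.filter_apply_pos (fun p => p ≤ x) n.factorization (mem_filter.1 hp).2]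
  rw [h1, Nat.prod_pow_factorization_eq_self]
  · rw [Finsupp.filter_apply]
  · intro p hp
    rw [Finsupp.support_filter, Nat.support_factorization] at hp
    exact Nat.prime_of_mem_primeFactors (mem_filter.1 hp).1

theorem lowp_pos (x n : ℕ) : 0 < lowp x n :=
  prod_pos fun _ hp => pow_pos (Nat.prime_of_mem_primeFactors (mem_filter.1 hp).1).pos _

theorem lowp_eq_inx {x n : ℕ} (hn : 0 < n) : lowp x n = inx x n := by
  refine Nat.eq_of_factorization_eq (lowp_pos _ _).ne' (inx_pos hn).ne' fun p => ?_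
  rw [lowp_fac, inx_fac hn]

theorem lowp_mul_rgh {x n : ℕ} (hn : 0 < n) : lowp x n * rgh x n = n := by
  rw [lowp_eq_inx hn, mul_comm, rgh_mul_inx hn]

theorem lowp_dvd {x n : ℕ} (hn : 0 < n) : lowp x n ∣ n := ⟨_, (lowp_mul_rgh hn).symm⟩

theorem lowp_le {x n : ℕ} (hn : 0 < n) : lowp x n ≤ n := Nat.le_of_dvd hn (lowp_dvd hn)

theorem lowp_mul {x m n : ℕ} (hm : 0 < m) (hn : 0 < n) : lowp x (m * n) = lowp x m * lowp x n := by
  rw [lowp_eq_inx hm, lowp_eq_inx hn, lowp_eq_inx (Nat.mul_pos hm hn), inx_mul hm hn]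

theorem lowp_one (x : ℕ) : lowp x 1 = 1 := by
  unfold lowp
  simp

variable {g : Cfg}

theorem lowp_M {x i q : ℕ} (hx : x ≤ z g i) : lowp x (M g i q) = 1 := by
  rw [lowp_eq_inx (M_pos g i q), inx_M hx]

/-- the part `≤ x` of a number is the product of the parts of its omitted part and of its rest -/
theorem lowp_omt_rst (d : ℕ → ℕ → ℝ) (t B q : ℕ) {x n : ℕ} (hn : 0 < n) :
    lowp x n = lowp x (omt g d t B q n) * lowp x (rst g d t B q n) := by
  have h := omt_mul_rst g d t B q hn.ne'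
  have h1 : 0 < omt g d t B q n := Nat.pos_of_ne_zero fun h0 => by
    rw [h0, zero_mul] at h
    omega
  have h2 : 0 < rst g d t B q n := Nat.pos_of_ne_zero fun h0 => by
    rw [h0, mul_zero] at h
    omega
  rw [← lowp_mul h1 h2, h]

/-- the identity of the inner parts -/
theorem clean_lowp (hV : g.V ⊆ Icc 1 (N g)) {i q r x : ℕ} (hx : x ≤ z g i) (hz : zs g ≤ z g i)
    (hq : q ∈ g.V) (hr : r ∈ g.V) (hc : Clean g (z g i) q r) :
    lowp x q * lowp x (rcof (z g i) (N g) (kc g q) r q) =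
      lowp x r * lowp x (rcof (z g i) (N g) (kc g q) q r) := by
  obtain ⟨-, -, -, ha, hb⟩ := clean_cofac hV hz hq hr hc
  rw [lowp_eq_inx (mem_Icc.1 (hV hq)).1, lowp_eq_inx (mem_Icc.1 (hV hr)).1, lowp_eq_inx ha,
    lowp_eq_inx hb]
  exact clean_inx hV hx hz hq hr hc

/-- (S1): the tilt of a clean pair -/
theorem tilt_lowp (hV : g.V ⊆ Icc 1 (N g)) {i q r x : ℕ} (hx : x ≤ z g i) (hz : zs g ≤ z g i)
    (hq : q ∈ g.V) (hr : r ∈ g.V) (hc : Clean g (z g i) q r) {s : ℝ} (hs : 0 ≤ s) :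
    1 ≤ 4 ^ s * (2 : ℝ) ^ (-(s * |((szx x r - szx x q : ℤ) : ℝ)|)) *
      ((lowp x (rcof (z g i) (N g) (kc g q) q r) : ℝ) *
        (lowp x (rcof (z g i) (N g) (kc g q) r q) : ℝ)) ^ s := by
  obtain ⟨-, -, -, ha, hb⟩ := clean_cofac hV hz hq hr hc
  have h := tilt_gap hV hx hz hq hr hc hs
  rw [← lowp_eq_inx ha, ← lowp_eq_inx hb] at h
  have h1 : (0 : ℝ) < lowp x (rcof (z g i) (N g) (kc g q) q r) := by exact_mod_cast lowp_pos _ _
  have h2 : (0 : ℝ) < lowp x (rcof (z g i) (N g) (kc g q) r q) := by exact_mod_cast lowp_pos _ _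
  have h3 := mul_pos h1 h2
  rw [Real.rpow_neg h3.le] at h
  have h4 : 0 < ((lowp x (rcof (z g i) (N g) (kc g q) q r) : ℝ) *
        (lowp x (rcof (z g i) (N g) (kc g q) r q) : ℝ)) ^ s := Real.rpow_pos_of_pos h3 s
  rwa [inv_le_iff_one_le_mul₀ h4] at h

/-- (S1), with the constant `16` -/
theorem tilt_lowp16 (hV : g.V ⊆ Icc 1 (N g)) {i q r x : ℕ} (hx : x ≤ z g i) (hz : zs g ≤ z g i)
    (hq : q ∈ g.V) (hr : r ∈ g.V) (hc : Clean g (z g i) q r) {s : ℝ} (hs : 0 ≤ s) (hs1 : s ≤ 1) :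
    1 ≤ 16 * (2 : ℝ) ^ (-(s * |((szx x r - szx x q : ℤ) : ℝ)|)) *
      ((lowp x (rcof (z g i) (N g) (kc g q) q r) : ℝ) *
        (lowp x (rcof (z g i) (N g) (kc g q) r q) : ℝ)) ^ s := by
  refine (tilt_lowp hV hx hz hq hr hc hs).trans ?_
  have h1 : (4 : ℝ) ^ s ≤ 16 := by
    calc (4 : ℝ) ^ s ≤ (4 : ℝ) ^ (1 : ℝ) :=
          Real.rpow_le_rpow_of_exponent_le (by norm_num) hs1
      _ ≤ 16 := by norm_num
  have h2 : 0 ≤ ((lowp x (rcof (z g i) (N g) (kc g q) q r) : ℝ) *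
        (lowp x (rcof (z g i) (N g) (kc g q) r q) : ℝ)) ^ s := by positivity
  exact mul_le_mul_of_nonneg_right (mul_le_mul_of_nonneg_right h1 (by positivity)) h2

/-- (S1): `2 ^ |l| ≤ 16 a_in b_in` -/
theorem gap_lowp (hV : g.V ⊆ Icc 1 (N g)) {i q r x : ℕ} (hx : x ≤ z g i) (hz : zs g ≤ z g i)
    (hq : q ∈ g.V) (hr : r ∈ g.V) (hc : Clean g (z g i) q r) :
    (2 : ℝ) ^ |((szx x r - szx x q : ℤ) : ℝ)| ≤
      16 * ((lowp x (rcof (z g i) (N g) (kc g q) q r) : ℝ) *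
        (lowp x (rcof (z g i) (N g) (kc g q) r q) : ℝ)) := by
  have h := tilt_lowp16 hV hx hz hq hr hc (s := 1) zero_le_one le_rfl
  rw [one_mul, Real.rpow_one, Real.rpow_neg (by norm_num)] at h
  have h2 : 0 < (2 : ℝ) ^ |((szx x r - szx x q : ℤ) : ℝ)| := by positivity
  calc (2 : ℝ) ^ |((szx x r - szx x q : ℤ) : ℝ)| = (2 : ℝ) ^ |((szx x r - szx x q : ℤ) : ℝ)| * 1 :=
        (mul_one _).symm
    _ ≤ (2 : ℝ) ^ |((szx x r - szx x q : ℤ) : ℝ)| *
        (16 * ((2 : ℝ) ^ |((szx x r - szx x q : ℤ) : ℝ)|)⁻¹ *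
        ((lowp x (rcof (z g i) (N g) (kc g q) q r) : ℝ) *
        (lowp x (rcof (z g i) (N g) (kc g q) r q) : ℝ))) := mul_le_mul_of_nonneg_left h h2.le
    _ = _ := by
        field_simp

/-- (S2) -/
theorem sum_tilt4 (T : Finset ℤ) {s : ℝ} (hs : 0 < s) :
    ∑ l ∈ T, (2 : ℝ) ^ (-(s * |(l : ℝ)|)) ≤ 2 + 4 / s := by
  refine (sum_tilt0 T hs).trans ?_
  have : 3 / s ≤ 4 / s := div_le_div_of_nonneg_right (by norm_num) hs.le
  linarith

end Vale.P028.SK
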